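import Vale.Agent.P002.Defs
import Vale.Agent.P002.Global.Dense

/-!
Integral points of the `SL_r` character varieties of punctured surface groups with prescribed
quasi-unipotent boundary classes are Zariski dense, in every rank; these varieties are irreducible.
-/

open Matrix
open scoped commutatorElement

namespace Vale.Agent.Results.P002.CurveGroups

open Vale.Agent.P002 (coord IntegralPoint QuasiUnipotent InY)

theorem result :
    ∀ g s r : ℕ, 2 ≤ r → (4 ≤ g ∨ (3 ≤ g ∧ s = 0)) →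
      let Γ := PresentedGroup
        ({(List.ofFn fun i : Fin g =>
            ⁅FreeGroup.of (Sum.inl (i, false) : (Fin g × Bool) ⊕ Fin s),
              FreeGroup.of (Sum.inl (i, true))⁆).prod *
          (List.ofFn fun j : Fin s => FreeGroup.of (Sum.inr j)).prod} :
          Set (FreeGroup ((Fin g × Bool) ⊕ Fin s)))
      let γ : Fin s → Γ := fun j => PresentedGroup.of (Sum.inr j)
      ∀ C : Fin s → SpecialLinearGroup (Fin r) ℂ, (∀ j, QuasiUnipotent (C j)) →
        ∃ L : IntermediateField ℚ ℂ, FiniteDimensional ℚ L ∧ (s = 0 → L = ⊥) ∧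
          (∀ ρ : Γ →* SpecialLinearGroup (Fin r) ℂ,
            (∀ x i j, (ρ x).1 i j ∈ L ∧ IsIntegral ℤ ((ρ x).1 i j)) → IntegralPoint L ρ) ∧
          (∃ ρ : Γ →* SpecialLinearGroup (Fin r) ℂ, InY γ C ρ ∧
            ∀ W : Submodule ℂ (Fin r → ℂ), (∀ x, ∀ v ∈ W, (ρ x).1 *ᵥ v ∈ W) → W = ⊥ ∨ W = ⊤) ∧
          (∀ F : MvPolynomial (Γ × Fin r × Fin r) ℂ,
            (∀ ρ : Γ →* SpecialLinearGroup (Fin r) ℂ, InY γ C ρ →
              (∀ x i j, (ρ x).1 i j ∈ L ∧ IsIntegral ℤ ((ρ x).1 i j)) →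
              MvPolynomial.aeval (coord ρ) F = 0) →
            ∀ ρ : Γ →* SpecialLinearGroup (Fin r) ℂ, InY γ C ρ →
              MvPolynomial.aeval (coord ρ) F = 0) ∧
          ∀ F G : MvPolynomial (Γ × Fin r × Fin r) ℂ,
            (∀ ρ : Γ →* SpecialLinearGroup (Fin r) ℂ, InY γ C ρ →
              MvPolynomial.aeval (coord ρ) (F * G) = 0) →
            (∀ ρ : Γ →* SpecialLinearGroup (Fin r) ℂ, InY γ C ρ →
              MvPolynomial.aeval (coord ρ) F = 0) ∨
            ∀ ρ : Γ →* SpecialLinearGroup (Fin r) ℂ, InY γ C ρ →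
              MvPolynomial.aeval (coord ρ) G = 0 := by
  intro g s r hr hgs Γ γ C hC
  open Vale.Agent.P002.Surface in
  obtain ⟨k, rfl⟩ : ∃ k, g = 3 + k := ⟨g - 3, by omega⟩
  obtain ⟨n, hn, hn1, ⟨y₀, hy₀, hy₀i⟩, hdense, hprime⟩ :=
    Vale.Agent.P002.Global.exists_dense_all hr (k := k)
      (by rcases hgs with h | ⟨-, h⟩
          · exact Or.inl (by omega)
          · exact Or.inr h) C hC
  obtain ⟨L, hL, hnL, hbot⟩ : ∃ L : IntermediateField ℚ ℂ, FiniteDimensional ℚ L ∧
      (∀ z ∈ Vale.Agent.P002.Surface.rootRing n, z ∈ L) ∧ (s = 0 → L = ⊥) := by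
    by_cases hs : s = 0
    · refine ⟨⊥, inferInstance, fun z hz => ?_, fun _ => rfl⟩
      rw [hn1 hs] at hz
      exact (Subring.closure_le (t := (⊥ : IntermediateField ℚ ℂ).toSubfield.toSubring)).2
        (fun w hw => by
          rw [show w = 1 by simpa using hw]
          exact one_mem (⊥ : IntermediateField ℚ ℂ)) hz
    · obtain ⟨L, hL, h⟩ := Vale.Agent.P002.Surface.exists_field hn
      exact ⟨L, hL, h, fun h0 => absurd h0 hs⟩
  refine ⟨L, hL, hbot, fun ρ hρ F hF => ?_, ?_⟩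
  · clear hF
    let R : Subring ℂ := L.toSubfield.toSubring ⊓ (integralClosure ℤ ℂ).toSubring
    have h : MvPolynomial.aeval (coord ρ) F ∈ R := by
      induction F using MvPolynomial.induction_on with
      | C a => rw [MvPolynomial.aeval_C, algebraMap_int_eq, eq_intCast]; exact intCast_mem R a
      | add p q hp hq => rw [map_add]; exact R.add_mem hp hq
      | mul_X p x hp =>
        rw [map_mul, MvPolynomial.aeval_X]
        exact R.mul_mem hp ⟨(hρ _ _ _).1, (hρ _ _ _).2⟩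
    exact ⟨h.1, h.2⟩
  · open Vale.Agent.P002.Surface Vale.Agent.P002.Global in
    let e := regr 3 k s
    have hlift : ∀ (ρ : Γ →* SL r) (w : FreeGroup (Gens (3 + k) ⊕ Fin s)),
        FreeGroup.lift (fun x => ρ (PresentedGroup.of x)) w = ρ (PresentedGroup.mk _ w) :=
      fun ρ w => DFunLike.congr_fun (FreeGroup.ext_hom
        (FreeGroup.lift fun x => ρ (PresentedGroup.of x)) (ρ.comp (PresentedGroup.mk _))
        fun x => by simp [PresentedGroup.of]) w
    have hword : ∀ y : Idx 3 k s → SL r, FreeGroup.lift (y ∘ e)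
        ((List.ofFn fun i : Fin (3 + k) =>
            ⁅FreeGroup.of (Sum.inl (i, false) : Gens (3 + k) ⊕ Fin s),
              FreeGroup.of (Sum.inl (i, true))⁆).prod *
          (List.ofFn fun j : Fin s => FreeGroup.of (Sum.inr j)).prod) = relT y := fun y => by
      rw [relT_regr, map_mul, map_list_prod, map_list_prod, List.map_ofFn, List.map_ofFn, rel]
      congr 3 <;> funext i <;> simp [map_commutatorElement, e]
    let pt : (Γ →* SL r) → Idx 3 k s → SL r := fun ρ x => ρ (PresentedGroup.of (e.symm x))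
    have hpte : ∀ ρ, pt ρ ∘ e = fun x => ρ (PresentedGroup.of x) := fun ρ => by
      funext x; simp [pt]
    choose w hw using fun x : Γ => PresentedGroup.mk_surjective _ x
    have hval : ∀ (ρ : Γ →* SL r) x, ρ x = FreeGroup.lift (pt ρ ∘ e) (w x) := fun ρ x => by
      rw [hpte, hlift, hw]
    have hinv : ∀ (ρ : Γ →* SL r) (W : Submodule ℂ (Fin r → ℂ)),
        (∀ x, ∀ v ∈ W, (ρ x).1 *ᵥ v ∈ W) ↔ ∀ x, ∀ v ∈ W, (pt ρ x).1 *ᵥ v ∈ W :=
      fun ρ W => ⟨fun h x => h _, fun h x v hv => by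
        rw [hval]; exact inv_words (pt ρ ∘ e) W (fun y => h (e y)) (w x) v hv⟩
    have hY : ∀ ρ : Γ →* SL r, InY γ C ρ → Pt C (pt ρ) := fun ρ hρ =>
      ⟨by rw [← hword, hpte, hlift]
          exact (congrArg ρ (PresentedGroup.one_of_mem (Set.mem_singleton _))).trans (map_one ρ),
        fun j => by
          have : e.symm (Sum.inr (Sum.inr j)) = Sum.inr j := by simp [e, regr]
          simpa [pt, this, γ] using hρ.2 j,
        fun W hW => by
          obtain ⟨W', h', hc⟩ := hρ.1 W ((hinv ρ W).2 hW)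
          exact ⟨W', (hinv ρ W').1 h', hc⟩⟩
    have hhom : ∀ y : Idx 3 k s → SL r, Pt C y → ∃ ρ : Γ →* SL r, pt ρ = y ∧ InY γ C ρ :=
      fun y hy => by
      let ρ : Γ →* SL r := PresentedGroup.toGroup (f := y ∘ e) (fun u hu => by
        rw [Set.mem_singleton_iff.1 hu]
        exact (hword y).trans hy.1)
      have hρ : ∀ x, ρ (PresentedGroup.of x) = y (e x) := fun x => PresentedGroup.toGroup.of _
      have hpt : pt ρ = y := funext fun x => by simp [pt, hρ]
      refine ⟨ρ, hpt, fun W hW => ?_, fun j => ?_⟩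
      · obtain ⟨W', h', hc⟩ := hy.2.2 W (hpt ▸ (hinv ρ W).1 hW)
        exact ⟨W', (hinv ρ W').2 (hpt.symm ▸ h'), hc⟩
      · have he : e (Sum.inr j) = Sum.inr (Sum.inr j) := by simp [e, regr]
        obtain ⟨Q, hQ⟩ := hy.2.1 j
        exact ⟨Q, by rw [show ρ (γ j) = y (e (Sum.inr j)) from hρ _, he, hQ]⟩
    let f : Γ × Fin r × Fin r → (Idx 3 k s → SL r) → ℂ := fun p y =>
      (FreeGroup.lift (y ∘ e) (w p.1)).1 p.2.1 p.2.2
    let ev : MvPolynomial (Γ × Fin r × Fin r) ℂ → (Idx 3 k s → SL r) → ℂ := fun F y =>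
      MvPolynomial.aeval (fun p => f p y) F
    have hev : ∀ F, ev F ∈ PolyFun (Idx 3 k s) r := fun F =>
      aeval_mem _ F f fun p => lift_mem (entGroup (PolyFun (Idx 3 k s) r))
        (fun x y => y (e x)) (fun x => proj_mem _) (w p.1) p.2.1 p.2.2
    have heq : ∀ F (ρ : Γ →* SL r), ev F (pt ρ) = MvPolynomial.aeval (coord ρ) F := fun F ρ => by
      simp only [ev, f, ← hval]
      rfl
    refine ⟨?_, fun F hF ρ hρ => ?_, fun F G hFG => ?_⟩
    · obtain ⟨ρ, hρ, hρY⟩ := hhom y₀ hy₀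
      exact ⟨ρ, hρY, fun W hW => hy₀i W (hρ ▸ (hinv ρ W).1 hW)⟩
    · rw [← heq]
      refine hdense (ev F) (hev F) (fun y hy hyP => ?_) (pt ρ) (hY ρ hρ)
      obtain ⟨ρ', hρy, hρY⟩ := hhom y hyP
      rw [← hρy, heq]
      refine hF ρ' hρY fun x i j => ?_
      have hmem : (ρ' x).1 i j ∈ rootRing n := by
        have h : FreeGroup.lift (pt ρ' ∘ e) (w x) ∈ intGroup (rootRing n) r :=
          FreeGroup.range_lift_le (by
            rintro _ ⟨u, rfl⟩
            rw [hρy]
            exact hy _) ⟨_, rfl⟩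
        rw [← hval] at h
        exact mem_intGroup.1 h i j
      exact ⟨hnL _ hmem, isIntegral_of_rootRing hn hmem⟩
    · rcases hprime _ (hev F) _ (hev G) (fun y hy => by
          obtain ⟨ρ, hρy, hρY⟩ := hhom y hy
          rw [← hρy, heq, heq, ← map_mul]
          exact hFG ρ hρY) with h | h
      · exact Or.inl fun ρ hρ => (heq F ρ) ▸ h _ (hY ρ hρ)
      · exact Or.inr fun ρ hρ => (heq G ρ) ▸ h _ (hY ρ hρ)

end Vale.Agent.Results.P002.CurveGroups
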