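import Vale.Agent.P002.Defs
import Vale.Agent.P002.Dense
import Vale.Agent.P002.Prod.Main
import Vale.Agent.P002.Prod.Statement

/-!
One number field for each rank makes the integral points Zariski dense in the `SL_r` character
variety of every finite product of projective curves of genus at least three and affine curves.
-/

open Matrix
open scoped commutatorElement

namespace Vale.Agent.Results.P002.ProductGroups

open Vale.Agent.P002 (coord IntegralPoint Semisimple)
open Vale.Agent.P002.Prod (PG IntegralDense)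

theorem result :
    ∀ r : ℕ, 2 ≤ r → ∃ L : IntermediateField ℚ ℂ, FiniteDimensional ℚ L ∧
      ∀ (a b : ℕ) (g : Fin a → ℕ) (n : Fin b → ℕ), (∀ i, 3 ≤ g i) →
        IntegralDense L r (PG g n) := by
  intro r hr
  open Vale.Agent.P002.Surface Vale.Agent.P002.Prod in
  obtain ⟨u, hu1, hu2, hinj⟩ := Vale.Agent.P002.exists_unit
  have hN : 0 < 2 * r.factorial := Nat.mul_pos two_pos r.factorial_pos
  obtain ⟨L₀, hL₀, hnL⟩ := Vale.Agent.P002.Surface.exists_field hN
  let L₁ : IntermediateField ℚ ℂ := IntermediateField.adjoin ℚ {(u : ℂ)}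
  have hQ : IsIntegral ℚ (u : ℂ) := hu1.tower_top
  have : FiniteDimensional ℚ L₁ := IntermediateField.adjoin.finiteDimensional hQ
  refine ⟨L₀ ⊔ L₁, inferInstance, fun a b g n hg => ?_⟩
  let Γ := PG g n
  refine ⟨fun ρ hρ F hF => ?_, fun F hF ρ hρ => ?_⟩
  · clear hF
    let R : Subring ℂ :=
      (L₀ ⊔ L₁).toSubfield.toSubring ⊓ (integralClosure ℤ ℂ).toSubring
    have h : MvPolynomial.aeval (coord ρ) F ∈ R := by
      induction F using MvPolynomial.induction_on with
      | C c => rw [MvPolynomial.aeval_C, algebraMap_int_eq, eq_intCast]; exact intCast_mem R c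
      | add p q hp hq => rw [map_add]; exact R.add_mem hp hq
      | mul_X p x hp =>
        rw [map_mul, MvPolynomial.aeval_X]
        exact R.mul_mem hp ⟨(hρ _ _ _).1, (hρ _ _ _).2⟩
    exact ⟨h.1, h.2⟩
  · open Vale.Agent.P002.Surface Vale.Agent.P002.Prod in
    let R : Subring ℂ :=
      (L₀ ⊔ L₁).toSubfield.toSubring ⊓ (integralClosure ℤ ℂ).toSubring
    have hR : RR r ≤ R := fun z hz =>
      ⟨(le_sup_left : L₀ ≤ L₀ ⊔ L₁) (hnL z hz), isIntegral_of_rootRing hN hz⟩
    have huL : (u : ℂ) ∈ L₀ ⊔ L₁ :=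
      (le_sup_right : L₁ ≤ L₀ ⊔ L₁) (IntermediateField.subset_adjoin ℚ _ (Set.mem_singleton _))
    have huR : u ∈ unitsIn R :=
      ⟨⟨huL, hu1⟩, ⟨by rw [Units.val_inv_eq_inv_val]; exact (L₀ ⊔ L₁).inv_mem huL, hu2⟩⟩
    obtain ⟨hok, hch⟩ := props_PG r g hg n
    let f : Γ × Fin r × Fin r → (Γ → SL r) → ℂ := fun p y => (y p.1).1 p.2.1 p.2.2
    let ev : (Γ → SL r) → ℂ := fun y => MvPolynomial.aeval (fun p => f p y) F
    have hev : ev ∈ PolyFun Γ r :=
      aeval_mem _ F f fun p => proj_mem p.1 p.2.1 p.2.2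
    exact dense_ss (G := Γ) (by omega) hok hch R hR u huR hinj (F := ev) hev
      (fun σ hσ hσi => hF σ hσ fun x i j => mem_intGroup.1 (hσi x) i j) hρ

end Vale.Agent.Results.P002.ProductGroups
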