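import Vale.Agent.P002.Uniform
import Vale.Agent.P002.Dense

/-!
Potential density of integral points on character varieties of virtually solvable groups, in every
rank and with arbitrary quasi-unipotent boundary classes.
-/

namespace Vale.Agent.Results.P002.VirtuallySolvable

open Vale.Agent.P002 (coord Semisimple Invariant QuasiUnipotent InY IntegralPoint)

/-- The bounded solvable-index locus. -/
lemma dense_bounded (Γ : Type) [Group Γ] [Group.FG Γ] (r s : ℕ) (γ : Fin s → Γ)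
    (M : Fin s → Matrix.SpecialLinearGroup (Fin r) ℂ) (hM : ∀ j, QuasiUnipotent (M j)) (m : ℕ) :
    ∃ L : IntermediateField ℚ ℂ, FiniteDimensional ℚ L ∧
      ∀ F : MvPolynomial (Γ × Fin r × Fin r) ℂ, Invariant F →
        (∀ ρ, InY γ M ρ → IntegralPoint L ρ → MvPolynomial.aeval (coord ρ) F = 0) →
        ∀ ρ, InY γ M ρ →
          (∃ N : Subgroup Γ, N.index ≠ 0 ∧ N.index ≤ m ∧ Group.IsSolvable (N.map ρ)) →
          MvPolynomial.aeval (coord ρ) F = 0 := by
  obtain ⟨K, hKn, hKf, hK⟩ := Vale.Agent.P002.exists_uniform Γ r m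
  obtain ⟨L, hL, h⟩ := Vale.Agent.P002.dense_diag (K := K) γ M hM
  exact ⟨L, hL, fun F hF hvan ρ hρ hN => h F hF hvan ρ hρ (hK ρ hρ.1 hN)⟩

theorem result :
    ∀ (Γ : Type) [Group Γ], Group.FG Γ →
      ∀ (r s : ℕ) (γ : Fin s → Γ) (M : Fin s → Matrix.SpecialLinearGroup (Fin r) ℂ),
        (∀ j, QuasiUnipotent (M j)) →
        (∀ m : ℕ, ∃ L : IntermediateField ℚ ℂ, FiniteDimensional ℚ L ∧
          ∀ F : MvPolynomial (Γ × Fin r × Fin r) ℂ, Invariant F →
            (∀ ρ, InY γ M ρ → IntegralPoint L ρ → MvPolynomial.aeval (coord ρ) F = 0) →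
            ∀ ρ, InY γ M ρ →
              (∃ N : Subgroup Γ, N.index ≠ 0 ∧ N.index ≤ m ∧ Group.IsSolvable (N.map ρ)) →
              MvPolynomial.aeval (coord ρ) F = 0) ∧
        ((∃ N : Subgroup Γ, N.FiniteIndex ∧ Group.IsSolvable N) →
          ∃ L : IntermediateField ℚ ℂ, FiniteDimensional ℚ L ∧
            ∀ F : MvPolynomial (Γ × Fin r × Fin r) ℂ, Invariant F →
              (∀ ρ, InY γ M ρ → IntegralPoint L ρ → MvPolynomial.aeval (coord ρ) F = 0) →
              ∀ ρ, InY γ M ρ → MvPolynomial.aeval (coord ρ) F = 0) := by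
  intro Γ _ hfg r s γ M hM
  refine ⟨fun m => dense_bounded Γ r s γ M hM m, fun ⟨N, hN, hsol⟩ => ?_⟩
  obtain ⟨L, hL, h⟩ := dense_bounded Γ r s γ M hM N.index
  refine ⟨L, hL, fun F hF hvan ρ hρ => h F hF hvan ρ hρ ⟨N, hN.index_ne_zero, le_rfl, ?_⟩⟩
  exact Group.isSolvable_of_surjective (ρ.subgroupMap_surjective N)

end Vale.Agent.Results.P002.VirtuallySolvable
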